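import Vale.Agent.P272.K.AMP.Main.Assembly
import Vale.Agent.P272.K.INT.Gronwall
import Vale.Agent.P272.K.T4.Stmt

/-!
# AMP-BIG: Hermitian `HSC ≤ 0` and `K_X` nef with `K_X^n > 0` imply that `K_X` is ample.

Definitions and the exact statements of the blocks.
-/

open scoped Manifold ContDiff ComplexOrder Topology
open Complex Set Filter MeasureTheory

set_option linter.all false

noncomputable section

namespace Vale.Agent.P272.K.AMP.BIG

open INT (intX PP)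
open Main

variable {n : ℕ}

section
variable {X : Type} [TopologicalSpace X] [ChartedSpace (Cm n) X]

/-- the canonical metric `log det w` -/
def phi0 (w : Chart n X → Cm n → Matrix (Fin n) (Fin n) ℂ) : Chart n X → Cm n → ℝ :=
  fun e z => Real.log (w e z).det.re

/-- the form `χ = cHess (log det w) + t w + i∂∂̄σ` of the class `K_X + t[w]` -/
def chiF (w : Chart n X → Cm n → Matrix (Fin n) (Fin n) ℂ) (t : ℝ) (σ : X → ℝ) :
    Chart n X → Cm n → Matrix (Fin n) (Fin n) ℂ :=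
  fun e z => cHess (fun y => Real.log (w e y).det.re) z + (t : ℂ) • w e z +
    cHess (fun y => σ (e.symm y)) z

/-- `σ` is a smooth potential, `sup σ = 0`, of a Kähler form of the class `K_X + t[w]` -/
structure Adm (w : Chart n X → Cm n → Matrix (Fin n) (Fin n) ℂ) (t : ℝ) (σ : X → ℝ) : Prop where
  smooth : SmoothFn (n := n) σ
  nonpos : ∀ x, σ x ≤ 0
  zero : ∃ x, σ x = 0
  pos : ∀ e x, At e x → (chiF w t σ e (e x)).PosDef

/-- `m_χ = 1 / tr_χ w`; `χ ≥ m_χ w` -/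
def mX (w χ : Chart n X → Cm n → Matrix (Fin n) (Fin n) ℂ) (x : X) : ℝ := (trX χ w x)⁻¹

/-- the twisted Kähler-Einstein equation with twist `t w + b χ`:
`g = cHess (log det g) + t w + b χ` -/
def IsTKE (w : Chart n X → Cm n → Matrix (Fin n) (Fin n) ℂ) (t b : ℝ) (σ : X → ℝ)
    (g : Chart n X → Cm n → Matrix (Fin n) (Fin n) ℂ) : Prop :=
  ∀ e x, At e x → g e (e x) = cHess (fun z => Real.log (g e z).det.re) (e x) +
    (t : ℂ) • w e (e x) + (b : ℂ) • chiF w t σ e (e x)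

variable [IsManifold 𝓘(ℂ, Cm n) ω X] [T2Space X] [CompactSpace X]

/-- the uniform control of the twisted metrics -/
structure CtrlB (w g : Chart n X → Cm n → Matrix (Fin n) (Fin n) ℂ) (σ : X → ℝ)
    (b Λ v0 V1 : ℝ) : Prop where
  kahler : IsKahler g
  ric : RicGe g
  smooth : SmoothFn (n := n) σ
  nonpos : ∀ x, σ x ≤ 0
  zero : ∃ x, σ x = 0
  qpsh : ∀ e x, At e x → (addH (fun e z => (Λ : ℂ) • w e z) σ e (e x)).PosSemidef
  upper : ∀ e x, At e x → ((Λ : ℂ) • w e (e x) +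
    cHess (fun z => Real.log (g e z).det.re - Real.log (w e z).det.re) (e x) +
    (b : ℂ) • cHess (fun y => σ (e.symm y)) (e x) - g e (e x)).PosSemidef
  pot : ∀ e x, At e x → Real.log (g e (e x)).det.re - Real.log (w e (e x)).det.re + b * σ x ≤ Λ
  vol_ge : v0 ≤ intX fun e z => (g e z).det.re
  vol_le : (intX fun e z => (g e z).det.re) ≤ V1

/-- the inequality (6.1) with constant `C1`, for one metric `g` -/
def DDg (w g : Chart n X → Cm n → Matrix (Fin n) (Fin n) ℂ) (C1 : ℝ) : Prop :=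
  ∀ B : X → ℝ, SmoothFn (n := n) B → (∀ x, 0 < B x) → (∀ x, B x ≤ 1) →
    IX g (fun x => ((B x)⁻¹) ^ (n - 2) * (trX g w x) ^ 2) ≤
      C1 * (IX g (fun x => ((B x)⁻¹) ^ (n - 1)) +
        intX (fun e z => ((B (e.symm z))⁻¹) ^ n * sqE g (Hf g B) e z * (g e z).det.re))

end

section
variable (n : ℕ) (X : Type) [TopologicalSpace X] [ChartedSpace (Cm n) X]
  [IsManifold 𝓘(ℂ, Cm n) ω X] [T2Space X] [CompactSpace X]

/-- block **CHI** (helper327), `n ≥ 2`: uniformly positive Kähler forms in `K_X + t[w]` outside sets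
of arbitrarily small volume -/
def ChiBlock : Prop :=
  ∀ w : Chart n X → Cm n → Matrix (Fin n) (Fin n) ℂ, IsKahler w → ∀ v0 : ℝ, 0 < v0 →
    (∀ t : ℝ, 0 < t → t ≤ 1 → Pos w t ∧ v0 ≤ PP (phi0 w) w t) →
    ∃ δ : ℝ, 0 < δ ∧ ∀ t : ℝ, 0 < t → t ≤ 1 → ∀ ε : ℝ, 0 < ε →
      ∃ σ : X → ℝ, Adm w t σ ∧ IX w (fun x => max (δ - mX w (chiF w t σ) x) 0) ≤ ε

/-- block **TKE**: existence and uniform control of the twisted Kähler-Einstein metrics -/
def TkeBlock : Prop :=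
  ∀ w : Chart n X → Cm n → Matrix (Fin n) (Fin n) ℂ, IsKahler w →
    ∃ Λ V1 : ℝ, 0 ≤ Λ ∧ ∀ t b : ℝ, 0 < t → t ≤ 1 → 0 ≤ b → b ≤ 1 → ∀ σ : X → ℝ, Adm w t σ →
      ∃ g : Chart n X → Cm n → Matrix (Fin n) (Fin n) ℂ, IsTKE w t b σ g ∧
        ∀ v0 : ℝ, v0 ≤ PP (phi0 w) w t → CtrlB w g σ b Λ v0 V1

/-- uniform exponential integrability of the potentials `σ` -/
def ExpBlock : Prop :=
  ∀ w : Chart n X → Cm n → Matrix (Fin n) (Fin n) ℂ, IsHermitian w → ∀ Λ : ℝ,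
    ∃ b1 : ℝ, 0 < b1 ∧ ∃ K : ℝ, 0 ≤ K ∧ ∀ σ : X → ℝ, SmoothFn (n := n) σ → (∀ x, σ x ≤ 0) →
      (∃ x, σ x = 0) →
      (∀ e x, At e x → (addH (fun e z => (Λ : ℂ) • w e z) σ e (e x)).PosSemidef) →
      ∀ b : ℝ, 0 ≤ b → b ≤ b1 → IX w (fun x => Real.exp (-(2 * b * σ x))) ≤ K

/-- block **MACH**: the machine (Steps 1-4 and 7-11 of AMP) for the metrics controlled by `CtrlB` -/
def MachBlock : Prop :=
  ∀ w : Chart n X → Cm n → Matrix (Fin n) (Fin n) ℂ, IsKahler w → ∀ Λ v0 : ℝ, 0 ≤ Λ → 0 < v0 →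
    ∃ b0 : ℝ, 0 < b0 ∧ b0 ≤ 1 ∧ ∀ b : ℝ, 0 ≤ b → b ≤ b0 → ∀ V1 C1 : ℝ, ∃ C : ℝ, 0 < C ∧
      ∀ (g : Chart n X → Cm n → Matrix (Fin n) (Fin n) ℂ) (σ : X → ℝ),
        CtrlB w g σ b Λ v0 V1 → DDg w g C1 → ∀ x, trX g w x ≤ C

/-- block **DD2** (RUN 2): the inequality (6.1) with a constant independent of `t`, once the metric
has a (bad) a priori bound `tr_g w ≤ Ct` -/
def DD2Block : Prop :=
  ∀ w h : Chart n X → Cm n → Matrix (Fin n) (Fin n) ℂ, IsKahler w → IsHermitian h → NonposHSC h →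
    ∀ δ b Λ v0 V1 K : ℝ, 0 < δ → 0 < b → b ≤ 1 → 0 ≤ Λ → 0 < v0 → ∃ C1 : ℝ, 0 < C1 ∧
      ∀ Ct : ℝ, ∃ ε : ℝ, 0 < ε ∧ ∀ (t : ℝ) (σ : X → ℝ)
        (g : Chart n X → Cm n → Matrix (Fin n) (Fin n) ℂ), 0 < t → t ≤ 1 → Adm w t σ →
        CtrlB w g σ b Λ v0 V1 → IsTKE w t b σ g → (∀ x, trX g w x ≤ Ct) →
        IX w (fun x => Real.exp (-(2 * b * σ x))) ≤ K →
        IX w (fun x => max (δ - mX w (chiF w t σ) x) 0) ≤ ε → DDg w g C1

/-- RUN 1 (helper821's NEF block): (6.1) for `Ric(g) ≥ -g + s w`, with a constant depending on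
`s` -/
def DD1Block : Prop :=
  ∀ w h : Chart n X → Cm n → Matrix (Fin n) (Fin n) ℂ, IsKahler w → IsHermitian h → NonposHSC h →
    ∀ s : ℝ, 0 < s → DDMainS n X w s

/-- block **FIN**: the assembly (`n ≥ 3`) -/
def FinBlock : Prop :=
  ChiBlock n X → TkeBlock n X → ExpBlock n X → MachBlock n X → DD1Block n X → DD2Block n X →
    ∀ w h : Chart n X → Cm n → Matrix (Fin n) (Fin n) ℂ, IsKahler w → IsHermitian h →
      NonposHSC h → NefCanonical w 0 → 0 < PP (phi0 w) w 0 → Pos w 0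

end

end Vale.Agent.P272.K.AMP.BIG
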